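import Vale.Agent.P286.H697.OmF
import Vale.Agent.P286.H710.OmS
import Vale.Agent.P286.H867.TwA
import Vale.Agent.P286.H64.Twist
import Vale.Agent.P286.H389.Jg

/-!
# Constant families of modules over the differential forms

For a graded differential space `N` the family `X ↦ Ω_X ⊗ N`.
-/

namespace Vale.Agent.P286.H459

open CategoryTheory TensorProduct Vale.Agent.P286.St
open Vale.Agent.P286.H847 (GD SGD)
open Vale.Agent.P286.H847.SGD
open Vale.Agent.P286.H697 (OmM OmF)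
open Vale.Agent.P286.H710 (Om OmS sgO sgC_pb)
open Vale.Agent.P286.H44 (dL omg OmGD)
open Vale.Agent.P286.H64
open Vale.Agent.P286.H867 (OE OEF)
open Vale.Agent.P286.H389 (Str)

noncomputable section

section Obj

variable {A B : Type} [CommRing A] [Algebra ℂ A] [CommRing B] [Algebra ℂ B]

theorem om_tmul {V : Type} [AddCommGroup V] [Module ℂ V] (w ω : Om ℂ A) (x : V) :
    w • (ω ⊗ₜ[ℂ] x) = (w * ω) ⊗ₜ[ℂ] x := rfl

/-- The product of a form and a form of integral degree. -/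
theorem omg_mul {p : ℕ} {i : ℤ} {w ω : Om ℂ A} (hw : w ∈ Om.gr ℂ A p) (h : ω ∈ omg A i) :
    w * ω ∈ omg A (i + p) := by
  rcases h with rfl | ⟨q, rfl, h⟩
  · rw [mul_zero]
    exact Submodule.zero_mem _
  · refine Or.inr ⟨p + q, ?_, Om.gr_mul hw h⟩
    push_cast
    ring

/-- The module `Ω_A ⊗ N` over the forms. -/
def cstO (A : Type) [CommRing A] [Algebra ℂ A] (N : GD) : OmM A where
  M := tens (OmS A) N
  leib w x := by
    change Om ℂ A ⊗[ℂ] N.V at x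
    change td (OmS A) N (w • x) = Om.d w • x + Om.sg w • td (OmS A) N x
    induction x using TensorProduct.induction_on with
    | zero => simp
    | tmul ω x =>
      rw [om_tmul, td_tmul, td_tmul, smul_add, om_tmul, om_tmul, om_tmul]
      change Om.d (w * ω) ⊗ₜ[ℂ] x + Om.sg (w * ω) ⊗ₜ[ℂ] N.d x =
        (Om.d w * ω) ⊗ₜ[ℂ] x + ((Om.sg w * Om.d ω) ⊗ₜ[ℂ] x + (Om.sg w * Om.sg ω) ⊗ₜ[ℂ] N.d x)
      rw [Om.d_mul, map_mul, add_tmul]
      abel
    | add a b ha hb => rw [smul_add, map_add, ha, hb, smul_add, map_add, smul_add]; abel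
  smul_gr p m w x hw hx := by
    change Om ℂ A ⊗[ℂ] N.V at x
    refine map_tgr (E := OmGD A) (F := N) (E' := OmGD A) (F' := N)
      (T := (Algebra.lsmul ℂ ℂ (Om ℂ A ⊗[ℂ] N.V) w)) ?_ hx
    intro i j ω y hij hω hy
    change w • (ω ⊗ₜ[ℂ] y) ∈ _
    rw [om_tmul]
    exact tmul_mem (by rw [← hij]; ring) (omg_mul hw hω) hy

/-- The map `Ω_A ⊗ V → Ω_B ⊗ V` defined by a homomorphism. -/
def cpb (f : A →ₐ[ℂ] B) (V : Type) [AddCommGroup V] [Module ℂ V] :
    Om ℂ A ⊗[ℂ] V →ₗ[ℂ] Om ℂ B ⊗[ℂ] V := TensorProduct.map (H44.pbL f) LinearMap.id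

section Cpb

variable {V : Type} [AddCommGroup V] [Module ℂ V]

theorem cpb_tmul (f : A →ₐ[ℂ] B) (ω : Om ℂ A) (x : V) :
    cpb f V (ω ⊗ₜ[ℂ] x) = Om.pb f ω ⊗ₜ[ℂ] x := rfl

theorem cpb_smul (f : A →ₐ[ℂ] B) (w : Om ℂ A) (x : Om ℂ A ⊗[ℂ] V) :
    cpb f V (w • x) = Om.pb f w • cpb f V x := by
  induction x using TensorProduct.induction_on with
  | zero => rw [smul_zero, map_zero, smul_zero]
  | tmul ω x => rw [om_tmul, cpb_tmul, cpb_tmul, map_mul, om_tmul]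
  | add a b ha hb => rw [smul_add, map_add, ha, hb, map_add, smul_add]

theorem cpb_id (x : Om ℂ A ⊗[ℂ] V) : cpb (AlgHom.id ℂ A) V x = x := by
  induction x using TensorProduct.induction_on with
  | zero => exact map_zero _
  | tmul ω x => rw [cpb_tmul, Om.pb_id]
  | add a b ha hb => rw [map_add, ha, hb]

theorem cpb_comp {C : Type} [CommRing C] [Algebra ℂ C] (f : A →ₐ[ℂ] B) (g : B →ₐ[ℂ] C)
    (x : Om ℂ A ⊗[ℂ] V) : cpb (g.comp f) V x = cpb g V (cpb f V x) := by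
  induction x using TensorProduct.induction_on with
  | zero => rw [map_zero, map_zero, map_zero]
  | tmul ω x => rw [cpb_tmul, cpb_tmul, cpb_tmul, Om.pb_pb]
  | add a b ha hb => rw [map_add, ha, hb, map_add, map_add]

theorem cpb_map (f : A →ₐ[ℂ] B) {V' : Type} [AddCommGroup V'] [Module ℂ V']
    {s : Om ℂ A →ₗ[ℂ] Om ℂ A} {s' : Om ℂ B →ₗ[ℂ] Om ℂ B} (u : V →ₗ[ℂ] V')
    (h : ∀ w, Om.pb f (s w) = s' (Om.pb f w)) (x : Om ℂ A ⊗[ℂ] V) :
    cpb f V' (TensorProduct.map s u x) = TensorProduct.map s' u (cpb f V x) := by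
  induction x using TensorProduct.induction_on with
  | zero => rw [map_zero, map_zero, map_zero, map_zero]
  | tmul ω x => rw [TensorProduct.map_tmul, cpb_tmul, cpb_tmul, TensorProduct.map_tmul, h]
  | add a b ha hb => rw [map_add, map_add, ha, hb, map_add, map_add]

end Cpb

/-- The map defined by a homomorphism. -/
def cstT (f : A →ₐ[ℂ] B) (N : GD) : GD.Hom (cstO A N).M (cstO B N).M :=
  tmap (E := OmS A) (E' := OmS B) (OmGD.pb f) (sgC_pb f) (GD.Hom.id N)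

theorem cstT_f (f : A →ₐ[ℂ] B) (N : GD) : (cstT f N).f = cpb f N.V := rfl

variable {n : ℕ}

/-- The operators `e i` on `Ω_A ⊗ N`. -/
def cstOE (A : Type) [CommRing A] [Algebra ℂ A] (N : LM n) : OE (cstO A N.toGD) n where
  e := (LM.tensL (OmS A) N).e
  e_e := (LM.tensL (OmS A) N).e_e
  e_d := (LM.tensL (OmS A) N).e_d
  e_gr := (LM.tensL (OmS A) N).e_gr
  e_smul i w x := by
    change Om ℂ A ⊗[ℂ] N.V at x
    change TensorProduct.map (sgO A) (N.e i) (w • x) =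
      Om.sg w • TensorProduct.map (sgO A) (N.e i) x
    induction x using TensorProduct.induction_on with
    | zero => simp
    | tmul ω x =>
      rw [om_tmul, TensorProduct.map_tmul, TensorProduct.map_tmul, om_tmul]
      change Om.sg (w * ω) ⊗ₜ[ℂ] N.e i x = (Om.sg w * Om.sg ω) ⊗ₜ[ℂ] N.e i x
      rw [map_mul]
    | add a b ha hb => rw [smul_add, map_add, ha, hb, map_add, smul_add]

theorem cstOE_lm (N : LM n) : (cstOE A N).lm = LM.tensL (OmS A) N := rfl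

/-- The powers of the sign operator on forms. -/
theorem sgp_OmS (p : ℤ) (w : Om ℂ A) : sgp (OmS A) p w = H697.Om.sgz p w := by
  by_cases h : Even p
  · rw [sgp_even _ h, H697.Om.sgz_even h]
  · rw [sgp_odd _ h, H697.Om.sgz_odd h]
    rfl

end Obj

section Fam

variable {T : TSite} (hT : Str T)

/-- The constant family `X ↦ Ω_X ⊗ N`. -/
def cst (N : GD) : OmF T where
  F X := cstO (T.R X) N
  t φ := cstT (T.f φ) N
  t_smul φ w x := cpb_smul (V := N.V) (T.f φ) w x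
  t_id X x := by
    have h := cpb_id (A := T.R X) (V := N.V) x
    rw [← hT.fid X] at h
    exact h
  t_comp {X Y Z} φ ψ x := by
    have h := cpb_comp (V := N.V) (T.f φ) (T.f ψ) x
    exact (congrArg (fun g : T.R X →ₐ[ℂ] T.R Z => cpb g N.V x) (hT.fcomp φ ψ)).trans h

theorem cst_F (N : GD) (X : T.C) : ((cst hT N).F X).M = tens (OmS (T.R X)) N := rfl

theorem cst_t (N : GD) {X Y : T.C} (φ : X ⟶ Y) (ω : Om ℂ (T.R X)) (x : N.V) :
    ((cst hT N).t φ).f (ω ⊗ₜ[ℂ] x) = Om.pb (T.f φ) ω ⊗ₜ[ℂ] x := rfl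

variable {n : ℕ}

/-- The operators `e i` on the constant family. -/
def cstE (N : LM n) : OEF (cst hT N.toGD) n where
  E X := cstOE (T.R X) N
  nat {X Y} φ i x := cpb_map (T.f φ) (s := sgO (T.R X)) (s' := sgO (T.R Y)) (N.e i)
    (Om.pb_sg (T.f φ)) x

theorem cstE_lm (N : LM n) (X : T.C) : ((cstE hT N).E X).lm = LM.tensL (OmS (T.R X)) N := rfl

/-- The cochain of the constant families defined by a linear map of degree `p`. -/
def cstC {N N' : GD} {p : ℤ} (u : N.V →ₗ[ℂ] N'.V)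
    (hu : ∀ (m : ℤ) (x : N.V), x ∈ N.gr m → u x ∈ N'.gr (m + p)) :
    OmF.Coch (cst hT N) (cst hT N') p where
  f X := LM.smap (OmS (T.R X)) p u
  deg X m x hx := LM.smap_mem (OmS (T.R X)) hu hx
  smul X w x := by
    change Om ℂ (T.R X) ⊗[ℂ] N.V at x
    change LM.smap (OmS (T.R X)) p u (w • x) = H697.Om.sgz p w • LM.smap (OmS (T.R X)) p u x
    induction x using TensorProduct.induction_on with
    | zero => simp
    | tmul ω x =>
      rw [om_tmul, LM.smap_tmul, LM.smap_tmul, om_tmul, sgp_OmS, sgp_OmS, map_mul]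
    | add a b ha hb => rw [smul_add, map_add, ha, hb, map_add, smul_add]
  tr {X Y} φ x := (cpb_map (T.f φ) (s := sgp (OmS (T.R X)) p) (s' := sgp (OmS (T.R Y)) p) u
    (fun w => (sgp_comm (OmS (T.R X)) (OmS (T.R Y)) p (OmGD.pb (T.f φ)).f (sgC_pb (T.f φ)) w).symm)
    x).symm

theorem cstC_f {N N' : GD} {p : ℤ} (u : N.V →ₗ[ℂ] N'.V)
    (hu : ∀ (m : ℤ) (x : N.V), x ∈ N.gr m → u x ∈ N'.gr (m + p)) (X : T.C) :
    (cstC hT u hu).f X = LM.smap (OmS (T.R X)) p u := rfl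

theorem cstC_add {N N' : GD} {p : ℤ} (u v : N.V →ₗ[ℂ] N'.V)
    (hu : ∀ (m : ℤ) (x : N.V), x ∈ N.gr m → u x ∈ N'.gr (m + p))
    (hv : ∀ (m : ℤ) (x : N.V), x ∈ N.gr m → v x ∈ N'.gr (m + p))
    (h : ∀ (m : ℤ) (x : N.V), x ∈ N.gr m → (u + v) x ∈ N'.gr (m + p)) :
    cstC hT (u + v) h = cstC hT u hu + cstC hT v hv := by
  apply OmF.Coch.ext'
  intro X x
  change LM.smap (OmS (T.R X)) p (u + v) x =
    LM.smap (OmS (T.R X)) p u x + LM.smap (OmS (T.R X)) p v x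
  rw [LM.smap, TensorProduct.map_add_right]
  rfl

theorem cstC_smul {N N' : GD} {p : ℤ} (c : ℂ) (u : N.V →ₗ[ℂ] N'.V)
    (hu : ∀ (m : ℤ) (x : N.V), x ∈ N.gr m → u x ∈ N'.gr (m + p))
    (h : ∀ (m : ℤ) (x : N.V), x ∈ N.gr m → (c • u) x ∈ N'.gr (m + p)) :
    cstC hT (c • u) h = c • cstC hT u hu := by
  apply OmF.Coch.ext'
  intro X x
  change LM.smap (OmS (T.R X)) p (c • u) x = c • LM.smap (OmS (T.R X)) p u x
  rw [LM.smap, TensorProduct.map_smul_right]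
  rfl

theorem cstC_one {N : GD}
    (h : ∀ (m : ℤ) (x : N.V), x ∈ N.gr m → (LinearMap.id : N.V →ₗ[ℂ] N.V) x ∈ N.gr (m + 0)) :
    cstC hT (LinearMap.id : N.V →ₗ[ℂ] N.V) h = OmF.Coch.one (cst hT N) := by
  apply OmF.Coch.ext'
  intro X x
  exact LM.smap_id (OmS (T.R X)) x

theorem cstC_cmp {N N' N'' : GD} {p q r : ℤ} (u : N.V →ₗ[ℂ] N'.V) (v : N'.V →ₗ[ℂ] N''.V)
    (hu : ∀ (m : ℤ) (x : N.V), x ∈ N.gr m → u x ∈ N'.gr (m + p))
    (hv : ∀ (m : ℤ) (x : N'.V), x ∈ N'.gr m → v x ∈ N''.gr (m + q)) (h : p + q = r)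
    (hw : ∀ (m : ℤ) (x : N.V), x ∈ N.gr m → (v ∘ₗ u) x ∈ N''.gr (m + r)) :
    cstC hT (v ∘ₗ u) hw = (cstC hT u hu).cmp (cstC hT v hv) h := by
  subst h
  apply OmF.Coch.ext'
  intro X x
  have := LM.smap_comp (OmS (T.R X)) p q u v x
  rw [add_comm q p] at this
  exact this.symm

theorem cstC_dl {N N' : GD} {p q : ℤ} (u : N.V →ₗ[ℂ] N'.V)
    (hu : ∀ (m : ℤ) (x : N.V), x ∈ N.gr m → u x ∈ N'.gr (m + p)) (h : p + 1 = q)
    (hw : ∀ (m : ℤ) (x : N.V), x ∈ N.gr m →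
      (N'.d ∘ₗ u - (p.negOnePow : ℤ) • (u ∘ₗ N.d)) x ∈ N'.gr (m + q)) :
    cstC hT (N'.d ∘ₗ u - (p.negOnePow : ℤ) • (u ∘ₗ N.d)) hw = (cstC hT u hu).dl h := by
  subst h
  apply OmF.Coch.ext'
  intro X x
  exact (LM.td_smap (OmS (T.R X)) p u x).symm

/-- The cochain of the constant families defined by a cochain of modules. -/
abbrev cstL {N N' : LM n} {p : ℤ} (z : LM.Coch N N' p) :
    OmF.Coch (cst hT N.toGD) (cst hT N'.toGD) p := cstC hT z.f z.deg

theorem cstL_e {N N' : LM n} {p : ℤ} (z : LM.Coch N N' p) (X : T.C) (i : Fin n)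
    (x : Om ℂ (T.R X) ⊗[ℂ] N.V) :
    (cstL hT z).f X (((cstE hT N).E X).e i x) =
      (p.negOnePow : ℤ) • ((cstE hT N').E X).e i ((cstL hT z).f X x) :=
  LM.smap_e (OmS (T.R X)) p z.f z.e i x

end Fam

end

end Vale.Agent.P286.H459
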