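import Vale.Agent.P286.H761.Xi
import Vale.Agent.P286.H459.CstN
import Vale.Agent.P286.H389.Tns

/-!
# Gauge transformations of twisted tensor products

A gauge functor (a transition map of `W ⊗ F(X)` for every family `F` of modules over the forms)
which commutes with the operators `y i` defines transition maps of the twisted tensor products.
-/

namespace Vale.Agent.P286.H459

open CategoryTheory TensorProduct Vale.Agent.P286.St
open Vale.Agent.P286.Gen (Gps BGT)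
open Vale.Agent.P286.H847 (GD SGD)
open Vale.Agent.P286.H847.SGD
open Vale.Agent.P286.H697 (OmM OmF)
open Vale.Agent.P286.H710 (Om OmS sgO sgC_pb)
open Vale.Agent.P286.H44 (dL omg OmGD)
open Vale.Agent.P286.H64
open Vale.Agent.P286.H761 (GauX tco tco_tmul lop lop_tmul)
open Vale.Agent.P286.H867 (OE OEF)
open Vale.Agent.P286.H389 (Str rm rm_tmul)

noncomputable section

section TwH

variable {n : ℕ} {W : SGD} (Y : LM.Yop n W)

/-- A morphism which commutes with the operators `y_i s ⊗ e_i` defines a morphism of the twisted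
tensor products. -/
def twHom {M M' : LM n} (g : GD.Hom (tens W M.toGD) (tens W M'.toGD))
    (h : ∀ (i : Fin n) (z : W.V ⊗[ℂ] M.V), g.f (LM.yE Y M i z) = LM.yE Y M' i (g.f z)) :
    GD.Hom (LM.tw Y M) (LM.tw Y M') where
  f := g.f
  comm z := by
    change W.V ⊗[ℂ] M.V at z
    change g.f (LM.twd Y M z) = LM.twd Y M' (g.f z)
    have h1 : g.f (td W M.toGD z) = td W M'.toGD (g.f z) := g.comm z
    rw [LM.twd_apply, LM.twd_apply]
    refine (map_sub g.f _ _).trans ?_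
    refine congrArg₂ (· - ·) h1 ?_
    exact (map_sum g.f _ _).trans (Finset.sum_congr rfl fun i _ => h i z)
  deg := g.deg

theorem yE_eq (M : LM n) (i : Fin n) (z : W.V ⊗[ℂ] M.V) :
    LM.yE Y M i z = lop W M.toGD (Y.y i) (TensorProduct.map W.sg (M.e i) z) := by
  induction z using TensorProduct.induction_on with
  | zero => simp
  | tmul w x => rfl
  | add a b ha hb => rw [map_add, map_add, map_add, ha, hb]

end TwH

/-- The test objects of a classifying stack have no twist. -/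
theorem strB {N : ℕ} (Γ : Gps N) : Str (BGT Γ) where
  s0 := rfl
  dl1 _ := rfl
  fid _ := rfl
  fcomp _ _ := rfl
  cen _ _ h := h

variable {N : ℕ} {Γ : Gps N}

/-- The operators `e i` of a family are cochains. -/
def oeC {T : TSite} {F : OmF T} {n : ℕ} (E : OEF F n) (i : Fin n) :
    OmF.Coch F F (-(4 * (i : ℤ) + 3)) where
  f X := (E.E X).e i
  deg X m x hx := (E.E X).e_gr i m x hx
  smul X w x := by
    rw [(E.E X).e_smul, H697.Om.sgz_odd]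
    rw [even_neg, Int.not_even_iff_odd]
    exact ⟨2 * (i : ℤ) + 1, by ring⟩
  tr φ x := (E.nat φ i x).symm

theorem sgp_odd_e {W : SGD} {n : ℕ} (i : Fin n) : H761.sgp W (-(4 * (i : ℤ) + 3)) = W.sg := by
  rw [H761.sgp, if_neg]
  rw [even_neg, Int.not_even_iff_odd]
  exact ⟨2 * (i : ℤ) + 1, by ring⟩

variable {W : SGD} {m n : ℕ}

/-- The properties of a gauge functor used for the twisted tensor products. -/
structure GauT (G : GauX Γ W m) (Y : LM.Yop n W) : Prop where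
  /-- compatibility with the operators `y i` -/
  y : ∀ (F : OmF (BGT Γ)) {X X' : Gen.BGObj Γ} (φ : X ⟶ X') (i : Fin n)
    (z : W.V ⊗[ℂ] (F.F X).M.V),
    (G.map F φ).f (lop W (F.F X).M (Y.y i) z) = lop W (F.F X').M (Y.y i) ((G.map F φ).f z)
  /-- semilinearity -/
  sl : ∀ (F : OmF (BGT Γ)) {X X' : Gen.BGObj Γ} (φ : X ⟶ X') (a : (BGT Γ).R X)
    (z : W.V ⊗[ℂ] (F.F X).M.V),
    (G.map F φ).f (rm ((BGT Γ).R X) W.V (F.F X).M.V a z) =
      rm ((BGT Γ).R X') W.V (F.F X').M.V ((BGT Γ).f φ a) ((G.map F φ).f z)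
  /-- morphisms without gauge transformation -/
  h1 : ∀ (F : OmF (BGT Γ)) {X X' : Gen.BGObj Γ} (φ : X ⟶ X'), Gen.BGHom.h φ = 1 →
    ∀ (w : W.V) (x : (F.F X).M.V), (G.map F φ).f (w ⊗ₜ[ℂ] x) = w ⊗ₜ[ℂ] (F.t φ).f x

namespace GauT

variable {G : GauX Γ W m} {Y : LM.Yop n W} (H : GauT G Y) {F : OmF (BGT Γ)} (E : OEF F n)
include H

theorem yE {X X' : Gen.BGObj Γ} (φ : X ⟶ X') (i : Fin n) (z : W.V ⊗[ℂ] (F.F X).M.V) :
    (G.map F φ).f (LM.yE Y (E.E X).lm i z) = LM.yE Y (E.E X').lm i ((G.map F φ).f z) := by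
  have h1 := G.map_co (oeC E i) φ z
  unfold H761.tco at h1
  rw [sgp_odd_e] at h1
  rw [yE_eq, yE_eq]
  refine (H.y F φ i _).trans ?_
  exact congrArg (lop W (F.F X').M (Y.y i)) h1.symm

/-- **The gauge map of the twisted tensor products.** -/
def tw {X X' : Gen.BGObj Γ} (φ : X ⟶ X') :
    GD.Hom (LM.tw Y (E.E X).lm) (LM.tw Y (E.E X').lm) :=
  twHom Y (M := (E.E X).lm) (M' := (E.E X').lm) (G.map F φ) (H.yE E φ)

theorem tw_f {X X' : Gen.BGObj Γ} (φ : X ⟶ X') : (H.tw E φ).f = (G.map F φ).f := rfl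

theorem tw_id (X : Gen.BGObj Γ) (z : W.V ⊗[ℂ] (F.F X).M.V) : (H.tw E (𝟙 X)).f z = z :=
  G.map_id F X z

theorem tw_comp {X X' X'' : Gen.BGObj Γ} (φ : X ⟶ X') (ψ : X' ⟶ X'')
    (z : W.V ⊗[ℂ] (F.F X).M.V) :
    (H.tw E (φ ≫ ψ)).f z = (H.tw E ψ).f ((H.tw E φ).f z) := G.map_comp F φ ψ z

end GauT

/-! ### The constant families -/

section Cst

variable {G : GauX Γ W m} {Y : LM.Yop n W} (H : GauT G Y)

/-- **The transition map of `W ⊗ (Ω_X ⊗ N)`, with its twisted differential.** -/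
def thG (N' : LM n) {X X' : Gen.BGObj Γ} (φ : X ⟶ X') :
    GD.Hom (LM.tw Y (LM.tensL (OmS ((BGT Γ).R X)) N')) (LM.tw Y (LM.tensL (OmS ((BGT Γ).R X')) N')) :=
  H.tw (cstE (strB Γ) N') φ

theorem thG_f (N' : LM n) {X X' : Gen.BGObj Γ} (φ : X ⟶ X') :
    (thG H N' φ).f = (G.map (cst (strB Γ) N'.toGD) φ).f := rfl

theorem thG_rm (N' : LM n) {X X' : Gen.BGObj Γ} (φ : X ⟶ X') (a : (BGT Γ).R X)
    (z : W.V ⊗[ℂ] (Om ℂ ((BGT Γ).R X) ⊗[ℂ] N'.V)) :
    (thG H N' φ).f (rm ((BGT Γ).R X) W.V (Om ℂ ((BGT Γ).R X) ⊗[ℂ] N'.V) a z) =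
      rm ((BGT Γ).R X') W.V (Om ℂ ((BGT Γ).R X') ⊗[ℂ] N'.V) ((BGT Γ).f φ a)
        ((thG H N' φ).f z) :=
  H.sl (cst (strB Γ) N'.toGD) φ a z

theorem thG_id (N' : LM n) (X : Gen.BGObj Γ)
    (z : W.V ⊗[ℂ] (Om ℂ ((BGT Γ).R X) ⊗[ℂ] N'.V)) : (thG H N' (𝟙 X)).f z = z :=
  H.tw_id (cstE (strB Γ) N') X z

theorem thG_comp (N' : LM n) {X X' X'' : Gen.BGObj Γ} (φ : X ⟶ X') (ψ : X' ⟶ X'')
    (z : W.V ⊗[ℂ] (Om ℂ ((BGT Γ).R X) ⊗[ℂ] N'.V)) :
    (thG H N' (φ ≫ ψ)).f z = (thG H N' ψ).f ((thG H N' φ).f z) :=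
  H.tw_comp (cstE (strB Γ) N') φ ψ z

/-- The transition maps without gauge transformation. -/
theorem thG_h1 (N' : LM n) {X X' : Gen.BGObj Γ} (φ : X ⟶ X') (h : Gen.BGHom.h φ = 1) (w : W.V)
    (ω : Om ℂ ((BGT Γ).R X)) (x : N'.V) :
    (thG H N' φ).f (w ⊗ₜ[ℂ] (ω ⊗ₜ[ℂ] x)) = w ⊗ₜ[ℂ] (Om.pb ((BGT Γ).f φ) ω ⊗ₜ[ℂ] x) :=
  H.h1 (cst (strB Γ) N'.toGD) φ h w (ω ⊗ₜ[ℂ] x)

theorem sgp_eq (E : SGD) (p : ℤ) : H64.sgp E p = H761.sgp E p := rfl

/-- **The transition maps commute with the cochains `s^p ⊗ (s^p ⊗ z)`.** -/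
theorem thG_coch {N' N'' : LM n} {p : ℤ} (z : LM.Coch N' N'' p) {X X' : Gen.BGObj Γ} (φ : X ⟶ X')
    (v : W.V ⊗[ℂ] (Om ℂ ((BGT Γ).R X) ⊗[ℂ] N'.V)) :
    (thG H N'' φ).f (LM.smap W (M := (LM.tensL (OmS ((BGT Γ).R X)) N').toGD)
      (N := (LM.tensL (OmS ((BGT Γ).R X)) N'').toGD) p
        (LM.smap (OmS ((BGT Γ).R X)) p z.f) v) =
      LM.smap W (M := (LM.tensL (OmS ((BGT Γ).R X')) N').toGD)
        (N := (LM.tensL (OmS ((BGT Γ).R X')) N'').toGD) p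
        (LM.smap (OmS ((BGT Γ).R X')) p z.f) ((thG H N' φ).f v) :=
  (G.map_co (cstL (strB Γ) z) φ v).symm

end Cst

end

end Vale.Agent.P286.H459
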