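import Vale.Agent.P286.H374.GauC

/-!
# Gauge transformations and operators which commute with forms up to sign
-/

namespace Vale.Agent.P286.H459

open TensorProduct Matrix
open Vale.Agent.P286.H710 (Om)
open Vale.Agent.P286.H374.Gau

noncomputable section

set_option linter.unusedSectionVars false

variable {I : Type} [Fintype I] [DecidableEq I] {n : ℕ} {y : Fin n → MvPolynomial (I × I) ℂ}
variable {W : Type} [Ring W] [Algebra ℂ W]
variable {X X' : Type} [AddCommGroup X] [Module ℂ X] [AddCommGroup X'] [Module ℂ X']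

/-- The operators `e` and `e'` are intertwined by `S`, up to the factor `c`. -/
def Rel (S : X →ₗ[ℂ] X') (c : ℂ) (e : Module.End ℂ X) (e' : Module.End ℂ X') : Prop :=
  ∀ x, S (e x) = c • e' (S x)

namespace Rel

variable {S : X →ₗ[ℂ] X'} {c c' : ℂ} {e f : Module.End ℂ X} {e' f' : Module.End ℂ X'}

theorem add (h : Rel S c e e') (k : Rel S c f f') : Rel S c (e + f) (e' + f') := fun x => by
  rw [LinearMap.add_apply, map_add, h, k, LinearMap.add_apply, smul_add]

theorem zero : Rel S c 0 0 := fun x => by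
  rw [LinearMap.zero_apply, LinearMap.zero_apply, map_zero, smul_zero]

theorem mul (h : Rel S c e e') (k : Rel S c' f f') : Rel S (c * c') (e * f) (e' * f') :=
  fun x => by
    rw [Module.End.mul_apply, h, k, map_smul, smul_smul, Module.End.mul_apply]

theorem mul1 (h : Rel S c e e') (k : Rel S 1 f f') : Rel S c (e * f) (e' * f') := by
  have := h.mul k
  rwa [mul_one] at this

theorem one_mul' (h : Rel S 1 e e') (k : Rel S c f f') : Rel S c (e * f) (e' * f') := by
  have := h.mul k
  rwa [_root_.one_mul] at this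

theorem sum {J : Type} {t : Finset J} {g : J → Module.End ℂ X} {g' : J → Module.End ℂ X'}
    (h : ∀ j ∈ t, Rel S c (g j) (g' j)) : Rel S c (∑ j ∈ t, g j) (∑ j ∈ t, g' j) := by
  classical
  induction t using Finset.induction_on with
  | empty => exact zero
  | insert a t ha ih =>
    rw [Finset.sum_insert ha, Finset.sum_insert ha]
    exact (h a (Finset.mem_insert_self _ _)).add
      (ih fun k hk => h k (Finset.mem_insert_of_mem hk))

/-- Products of matrices. -/
theorem mat {M N : Matrix I I (Module.End ℂ X)} {M' N' : Matrix I I (Module.End ℂ X')}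
    (h : ∀ i j, Rel S c (M i j) (M' i j)) (k : ∀ i j, Rel S c' (N i j) (N' i j)) (i j : I) :
    Rel S (c * c') ((M * N) i j) ((M' * N') i j) := by
  rw [Matrix.mul_apply, Matrix.mul_apply]
  exact sum fun l _ => (h i l).mul (k l j)

end Rel

variable {Q : WD I n y W} {B : Type} [CommRing B] [Algebra ℂ B]

/-- A linear map which commutes with the functions, and with the algebra `W` and the one-forms up
to sign. -/
structure Nt (R : Rp Q B (Module.End ℂ X)) (R' : Rp Q B (Module.End ℂ X')) (t : W →ₐ[ℂ] W) (c : ℂ)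
    (S : X →ₗ[ℂ] X') : Prop where
  lw : ∀ w x, S (R.lw w x) = R'.lw (t w) (S x)
  ro : ∀ b x, S (R.ro b x) = R'.ro b (S x)
  r1 : ∀ b x, S (R.r1 (Om.dd b) x) = c • R'.r1 (Om.dd b) (S x)
  tth : ∀ i j, t (Q.th i j) = c • Q.th i j
  txi : ∀ i, t (Q.xi i) = c • Q.xi i
  tP : ∀ q, t (Q.P q) = Q.P q

namespace Nt

variable {R : Rp Q B (Module.End ℂ X)} {R' : Rp Q B (Module.End ℂ X')} {t : W →ₐ[ℂ] W} {c : ℂ}
  {S : X →ₗ[ℂ] X'}

theorem rro (h : Nt R R' t c S) (b : B) : Rel S 1 (R.ro b) (R'.ro b) := fun x => by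
  rw [h.ro, one_smul]

theorem rth (h : Nt R R' t c S) (i j : I) : Rel S c (R.lw (Q.th i j)) (R'.lw (Q.th i j)) :=
  fun x => by rw [h.lw, h.tth, map_smul, LinearMap.smul_apply]

theorem rxi (h : Nt R R' t c S) (i : Fin n) : Rel S c (R.lw (Q.xi i)) (R'.lw (Q.xi i)) :=
  fun x => by rw [h.lw, h.txi, map_smul, LinearMap.smul_apply]

theorem rP (h : Nt R R' t c S) (q : MvPolynomial (I × I) ℂ) :
    Rel S 1 (R.lw (Q.P q)) (R'.lw (Q.P q)) :=
  fun x => by rw [h.lw, h.tP, one_smul]

theorem raT (h : Nt R R' t c S) (U U' : Matrix I I B) (i j : I) :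
    Rel S c (R.aT U U' i j) (R'.aT U U' i j) := by
  have hU : ∀ (U : Matrix I I B) (i j : I), Rel S 1 (R.roM U i j) (R'.roM U i j) :=
    fun U i j => h.rro _
  have hd : ∀ i j : I, Rel S c (R.deM U i j) (R'.deM U i j) := fun i j => h.r1 _
  have ht : ∀ i j : I, Rel S c (R.lwM Q.th i j) (R'.lwM Q.th i j) := fun i j => h.rth i j
  have h1 := Rel.mat (fun i j => Rel.mat (hU U') ht i j) (hU U) i j
  have h2 := Rel.mat (hU U') hd i j
  rw [one_mul, mul_one] at h1
  rw [one_mul] at h2
  rw [Rp.aT, Rp.aT, Matrix.add_apply, Matrix.add_apply]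
  exact h1.add h2

theorem ract (h : Nt R R' t c S) (z : B ⊗[ℂ] MvPolynomial (I × I) ℂ) :
    Rel S 1 (R.act z) (R'.act z) := by
  induction z using TensorProduct.induction_on with
  | zero => rw [map_zero, map_zero]; exact Rel.zero
  | tmul b q =>
    rw [Rp.act_tmul, Rp.act_tmul]
    exact (h.rro b).mul1 (h.rP q)
  | add a b ha hb => rw [map_add, map_add]; exact ha.add hb

/-- **The gauge transform is compatible with the operators which commute with the forms up to
sign.** -/
theorem aU (h : Nt R R' t c S) (U U' : Matrix I I B) (w : W) (x : X) :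
    S (R.aU U U' w x) = R'.aU U U' (t w) (S x) := by
  revert x
  induction w using Q.ind with
  | h1 i j =>
    intro x
    rw [h.tth, map_smul, LinearMap.smul_apply, Rp.aU_th, Rp.aU_th]
    exact h.raT U U' i j x
  | h2 i =>
    intro x
    rw [h.txi, map_smul, LinearMap.smul_apply, Rp.aU_xi, Rp.aU_xi]
    exact h.rxi i x
  | h3 i j =>
    intro x
    rw [h.tP, Rp.aU_P, Rp.aU_P, Rp.fH, Rp.fH, AlgHom.comp_apply, AlgHom.comp_apply, h.ract,
      one_smul]
  | hc k =>
    intro x
    rw [AlgHom.commutes, AlgHom.commutes, AlgHom.commutes, Module.algebraMap_end_apply,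
      Module.algebraMap_end_apply, map_smul]
  | ha a b ha hb =>
    intro x
    rw [map_add, map_add, map_add, LinearMap.add_apply, LinearMap.add_apply, map_add, ha, hb]
  | hm a b ha hb =>
    intro x
    rw [map_mul, map_mul, map_mul, Module.End.mul_apply, Module.End.mul_apply, ha, hb]

end Nt

end

end Vale.Agent.P286.H459
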