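import Vale.Agent.P286.H374.GauE
import Vale.Agent.P286.H459.GCoch

/-!
# The gauge transition maps and cochains
-/

namespace Vale.Agent.P286.H459

open TensorProduct Matrix
open Vale.Agent.P286.H710 (Om)
open Vale.Agent.P286.H697 (OmM)
open Vale.Agent.P286.H374.Gau (WD Rp Invt rM rp lwH_apply roH_apply lw_tmul ro_tmul r1_tmul G_tmul)

noncomputable section

set_option linter.unusedSectionVars false

variable {I : Type} [Fintype I] [DecidableEq I] {n : ℕ} {y : Fin n → MvPolynomial (I × I) ℂ}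
variable {W : Type} [Ring W] [Algebra ℂ W] (Q : WD I n y W)

/-- The power `p` of the sign automorphism. -/
def sA (p : ℤ) : W →ₐ[ℂ] W := if Even p then AlgHom.id ℂ W else Q.s

theorem sA_even {p : ℤ} (h : Even p) (w : W) : sA Q p w = w := by rw [sA, if_pos h]; rfl

theorem sA_odd {p : ℤ} (h : ¬ Even p) (w : W) : sA Q p w = Q.s w := by rw [sA, if_neg h]

theorem sA_s (p : ℤ) (w : W) : sA Q p (Q.s w) = Q.s (sA Q p w) := by
  by_cases h : Even p
  · rw [sA_even Q h, sA_even Q h]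
  · rw [sA_odd Q h, sA_odd Q h]

/-- The sign `(-1)^p`. -/
def cp (p : ℤ) : ℂ := ((p.negOnePow : ℤ) : ℂ)

theorem cp_even {p : ℤ} (h : Even p) : cp p = 1 := by
  rw [cp, Int.negOnePow_even p h]
  simp

theorem cp_odd {p : ℤ} (h : ¬ Even p) : cp p = -1 := by
  rw [cp, Int.negOnePow_odd p (Int.not_even_iff_odd.1 h)]
  simp

theorem sA_of_neg (p : ℤ) {w : W} (h : Q.s w = -w) : sA Q p w = cp p • w := by
  by_cases hp : Even p
  · rw [sA_even Q hp, cp_even hp, one_smul]
  · rw [sA_odd Q hp, cp_odd hp, h, neg_smul, one_smul]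

theorem sA_of_pos (p : ℤ) {w : W} (h : Q.s w = w) : sA Q p w = w := by
  by_cases hp : Even p
  · rw [sA_even Q hp]
  · rw [sA_odd Q hp, h]

variable {B : Type} [CommRing B] [Algebra ℂ B] {B' : Type} [CommRing B'] [Algebra ℂ B']

/-- The operator `s^p ⊗ u`. -/
def sT {V V' : Type} [AddCommGroup V] [Module ℂ V] [AddCommGroup V'] [Module ℂ V'] (p : ℤ)
    (u : V →ₗ[ℂ] V') : W ⊗[ℂ] V →ₗ[ℂ] W ⊗[ℂ] V' := TensorProduct.map (sA Q p).toLinearMap u

theorem sT_tmul {V V' : Type} [AddCommGroup V] [Module ℂ V] [AddCommGroup V'] [Module ℂ V']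
    (p : ℤ) (u : V →ₗ[ℂ] V') (w : W) (x : V) : sT Q p u (w ⊗ₜ x) = sA Q p w ⊗ₜ u x := rfl

/-- The operator `s^p ⊗ u` and the operators of `W` and of the forms. -/
theorem nt_sT (M N : OmM B) (p : ℤ) (u : M.M.V →ₗ[ℂ] N.M.V)
    (hu : ∀ (w : Om ℂ B) (x : M.M.V), u (w • x) = H697.Om.sgz p w • u x) :
    Nt (rM Q M) (rM Q N) (sA Q p) (cp p) (sT Q p u) where
  lw w x := by
    induction x using TensorProduct.induction_on with
    | zero => rw [map_zero, map_zero, map_zero]
    | tmul a x =>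
      change sT Q p u ((w * a) ⊗ₜ x) = (sA Q p w * sA Q p a) ⊗ₜ u x
      rw [sT_tmul, map_mul]
    | add a b ha hb => rw [map_add, map_add, map_add, map_add, ha, hb]
  ro b x := by
    induction x using TensorProduct.induction_on with
    | zero => rw [map_zero, map_zero, map_zero]
    | tmul a x =>
      change sT Q p u (a ⊗ₜ (algebraMap B (Om ℂ B) b • x)) =
        sA Q p a ⊗ₜ (algebraMap B (Om ℂ B) b • u x)
      rw [sT_tmul, hu, AlgHom.commutes]
    | add a b ha hb => rw [map_add, map_add, map_add, map_add, ha, hb]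
  r1 b x := by
    induction x using TensorProduct.induction_on with
    | zero => rw [map_zero, map_zero, map_zero, smul_zero]
    | tmul a x =>
      change sT Q p u (Q.s a ⊗ₜ ((Om.dd b : Om ℂ B) • x)) =
        cp p • (Q.s (sA Q p a) ⊗ₜ ((Om.dd b : Om ℂ B) • u x))
      rw [sT_tmul, hu, sA_s, H697.Om.sgz_dd, ← tmul_smul]
      congr 1
      rw [cp, smul_assoc, Int.cast_smul_eq_zsmul]
    | add a b ha hb => rw [map_add, map_add, map_add, map_add, ha, hb, smul_add]
  tth i j := sA_of_neg Q p (Q.sth i j)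
  txi i := sA_of_neg Q p (Q.sxi i)
  tP q := sA_of_pos Q p (Q.sP q)

/-- **The transition maps commute with the operators `s^p ⊗ u`.** -/
theorem G_co {M N : OmM B} {M' N' : OmM B'} (p : ℤ) (u : M.M.V →ₗ[ℂ] N.M.V)
    (u' : M'.M.V →ₗ[ℂ] N'.M.V)
    (hu' : ∀ (w : Om ℂ B') (x : M'.M.V), u' (w • x) = H697.Om.sgz p w • u' x)
    (t : M.M.V →ₗ[ℂ] M'.M.V) (t' : N.M.V →ₗ[ℂ] N'.M.V) (ht : ∀ x, u' (t x) = t' (u x))
    (U U' : Matrix I I B') (z : W ⊗[ℂ] M.M.V) :
    sT Q p u' (H374.Gau.G Q M M' t U U' z) = H374.Gau.G Q N N' t' U U' (sT Q p u z) := by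
  induction z using TensorProduct.induction_on with
  | zero => rw [map_zero, map_zero, map_zero, map_zero]
  | tmul w x =>
    rw [G_tmul, (nt_sT Q M' N' p u' hu').aU U U', sT_tmul, sT_tmul, G_tmul, map_one, ht]
  | add a b ha hb => rw [map_add, map_add, map_add, map_add, ha, hb]

end

end Vale.Agent.P286.H459
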