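import Vale.Agent.P286.H459.ThSI
import Vale.Agent.P286.H389.ThX
import Vale.Agent.P286.H64.WInst

/-!
# The DG functor `Theta` of a representation
-/

namespace Vale.Agent.P286.H459

open CategoryTheory
open Vale.Agent.P286.Gen (Gps BGT)
open Vale.Agent.P286.H64
open Vale.Agent.P286.H867 (yop)
open Vale.Agent.P286.H987 (Rpn)
open Vale.Agent.P286.H389 (ThetaD ThetaD_cart ThetaD_qis)

noncomputable section

variable {N : ℕ} {Γ : Gps N} {I : Type} [Fintype I] [DecidableEq I] (R : Rpn Γ I) (n : ℕ)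

/-- **The DG functor `Theta`, for a representation.** -/
def Yd : H353.DGF (H274.LMod n) (H353.gtc (BGT Γ)) := ThetaD (gauT R 0 n)

/-- The values of `Theta` are cartesian. -/
theorem Yd_cart (P : LM n) :
    St.Cx.Cart (T := BGT Γ) (((Yd R n).comp (H847.toD (BGT Γ))).obj P) :=
  ThetaD_cart (gauT R 0 n) P

/-- `Theta` preserves quasi-isomorphisms. -/
theorem Yd_qis ⦃P Q : H353.Z0 (H274.LMod n)⦄ (a : P ⟶ Q) (h : H274.LMod.W n a) :
    H847.gqis (BGT Γ) ((Yd R n).z0.map a) := ThetaD_qis (gauT R 0 n) (ctrW I n) a h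

end

end Vale.Agent.P286.H459
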