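import Vale.Agent.P286.H459.GauTI
import Vale.Agent.P286.H389.ThD
import Vale.Agent.P286.H761.Gx

/-!
# The gauge transformations of the DG functor `Theta`
-/

namespace Vale.Agent.P286.H459

open CategoryTheory TensorProduct Vale.Agent.P286.St
open Vale.Agent.P286.Gen (Gps BGT)
open Vale.Agent.P286.H847 (GD SGD WK Wk)
open Vale.Agent.P286.H64
open Vale.Agent.P286.H761 (GauX gauX)
open Vale.Agent.P286.H867 (yop)
open Vale.Agent.P286.H987 (Rpn)

noncomputable section

variable {N : ℕ} {Γ : Gps N}

/-- **The gauge transformations for all modules.** -/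
def thS {W : SGD} {m n : ℕ} {G : GauX Γ W m} {Y : LM.Yop n W} (H : GauT G Y) :
    H389.ThS Γ Y where
  k N' := thK H N'
  co {_ _ _} z {_ _} φ x := (thG_coch H z φ x).symm

theorem thS_g {W : SGD} {m n : ℕ} {G : GauX Γ W m} {Y : LM.Yop n W} (H : GauT G Y)
    (N' : LM n) {X X' : Gen.BGObj Γ} (φ : X ⟶ X') : ((thS H).k N').g φ = thG H N' φ := rfl

variable {I : Type} [Fintype I] [DecidableEq I] (R : Rpn Γ I)

/-- The conditions for the gauge functor of the Weil algebra. -/
theorem gauT (k n : ℕ) : GauT (gauX k R) (yop I k n) := GauT.of_gm1 R (gauX k R) fun _ _ _ _ => rfl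

/-- **The gauge transformations of `Theta`, for a representation.** -/
def thSR (n : ℕ) : H389.ThS Γ (yop I 0 n) := thS (gauT R 0 n)

end

end Vale.Agent.P286.H459
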