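import Vale.Agent.P286.H459.ThG
import Vale.Agent.P286.H459.GCo
import Vale.Agent.P286.H389.ThF
import Vale.Agent.P286.H374.GauH
import Vale.Agent.P286.H867.Yop

/-!
# The gauge functor of a representation and the twisted tensor products
-/

namespace Vale.Agent.P286.H459

open CategoryTheory TensorProduct Vale.Agent.P286.St
open Vale.Agent.P286.Gen (Gps BGT)
open Vale.Agent.P286.H847 (GD SGD WK Wk)
open Vale.Agent.P286.H847.SGD
open Vale.Agent.P286.H697 (OmM OmF)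
open Vale.Agent.P286.H710 (Om OmS sgO sgC_pb)
open Vale.Agent.P286.H64
open Vale.Agent.P286.H761 (GauX tco tco_tmul lop lop_tmul)
open Vale.Agent.P286.H867 (OE OEF yop yel)
open Vale.Agent.P286.H389 (Str rm rm_tmul)
open Vale.Agent.P286.H987 (Rpn)
open Vale.Agent.P286.H374.Gau (wq gm1 gm1_f G_inv G_ro G_tmul invt_ep ro ro_tmul)

noncomputable section

set_option linter.unusedSectionVars false

section Rm

variable {A : Type} [CommRing A] [Algebra ℂ A] (M : OmM A) (W : Type) [Ring W] [Algebra ℂ W]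

/-- The action of the functions on the right factor. -/
theorem rm_eq_ro (a : A) (z : W ⊗[ℂ] M.M.V) : rm A W M.M.V a z = ro M.M.V W a z := by
  induction z using TensorProduct.induction_on with
  | zero => rw [map_zero, map_zero]
  | tmul w x => rw [rm_tmul, ro_tmul, algebraMap_smul]
  | add x y hx hy => rw [map_add, map_add, hx, hy]

theorem G_h1 {n : ℕ} {I : Type} [Fintype I] [DecidableEq I] {y : Fin n → MvPolynomial (I × I) ℂ}
    {B B' : Type} [CommRing B] [Algebra ℂ B] [CommRing B'] [Algebra ℂ B']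
    {W : Type} [Ring W] [Algebra ℂ W] (Q : H374.Gau.WD I n y W) (M : OmM B) (M' : OmM B')
    (t : M.M.V →ₗ[ℂ] M'.M.V) (w : W) (x : M.M.V) :
    H374.Gau.G Q M M' t 1 1 (w ⊗ₜ[ℂ] x) = w ⊗ₜ[ℂ] t x := by
  rw [G_tmul, H374.Gau.Rp.aU_one]
  change (w * 1) ⊗ₜ[ℂ] t x = _
  rw [mul_one]

end Rm

variable {N : ℕ} {Γ : Gps N} {I : Type} [Fintype I] [DecidableEq I] (R : Rpn Γ I) {k n : ℕ}
  {X X' : Gen.BGObj Γ} (φ : X ⟶ X')

theorem gm1_y (M : OmM X.A.R) (M' : OmM X'.A.R) (t : GD.Hom M.M M'.M) (i : Fin n)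
    (z : Wk I k ⊗[ℂ] M.M.V) :
    (gm1 k R φ M M' t).f (lop (WK I k) M.M ((yop I k n).y i) z) =
      lop (WK I k) M'.M ((yop I k n).y i) ((gm1 k R φ M M' t).f z) :=
  G_inv (Q := wq I k) (M := M) (M' := M') (t := t.f) (R.mul_inv (Gen.BGHom.h φ))
    (invt_ep (2 * ((i : ℕ) + 1))) z

theorem gm1_rm (M : OmM X.A.R) (M' : OmM X'.A.R) (t : GD.Hom M.M M'.M)
    (ht : ∀ (w : Om ℂ X.A.R) (x : M.M.V), t.f (w • x) = Om.pb (Gen.BGHom.f φ) w • t.f x)
    (a : X.A.R) (z : Wk I k ⊗[ℂ] M.M.V) :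
    (gm1 k R φ M M' t).f (rm X.A.R (Wk I k) M.M.V a z) =
      rm X'.A.R (Wk I k) M'.M.V (Gen.BGHom.f φ a) ((gm1 k R φ M M' t).f z) := by
  rw [rm_eq_ro]
  refine Eq.trans ?_ (rm_eq_ro M' (Wk I k) (Gen.BGHom.f φ a) ((gm1 k R φ M M' t).f z)).symm
  exact G_ro (Q := wq I k) (M := M) (M' := M') (t := t.f) (U := R.r (Gen.BGHom.h φ))
    (U' := R.r (Gen.BGHom.h φ)⁻¹) ht a z

theorem gm1_h1 (M : OmM X.A.R) (M' : OmM X'.A.R) (t : GD.Hom M.M M'.M)
    (h : Gen.BGHom.h φ = 1) (w : Wk I k) (x : M.M.V) :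
    (gm1 k R φ M M' t).f (w ⊗ₜ[ℂ] x) = w ⊗ₜ[ℂ] t.f x := by
  have h2 : R.r (Gen.BGHom.h φ) = 1 := by rw [h, map_one]
  have h3 : R.r (Gen.BGHom.h φ)⁻¹ = 1 := by
    have : (Gen.BGHom.h φ)⁻¹ = 1 := by rw [h]; exact inv_one
    rw [this, map_one]
  rw [gm1_f, h2, h3]
  exact G_h1 (wq I k) M M' t.f w x

theorem sgp_WK (p : ℤ) : H761.sgp (WK I k) p = (sA (wq I k) p).toLinearMap := by
  by_cases h : Even p
  · rw [H761.sgp, if_pos h, sA, if_pos h]
    rfl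
  · rw [H761.sgp, if_neg h, sA, if_neg h]
    rfl

theorem gm1_co {M K : OmM X.A.R} {M' K' : OmM X'.A.R} (p : ℤ) (u : M.M.V →ₗ[ℂ] K.M.V)
    (u' : M'.M.V →ₗ[ℂ] K'.M.V)
    (hu' : ∀ (w : Om ℂ X'.A.R) (x : M'.M.V), u' (w • x) = H697.Om.sgz p w • u' x)
    (t : GD.Hom M.M M'.M) (t' : GD.Hom K.M K'.M) (ht : ∀ x, u' (t.f x) = t'.f (u x))
    (z : Wk I k ⊗[ℂ] M.M.V) :
    tco (WK I k) p u' ((gm1 k R φ M M' t).f z) =
      (gm1 k R φ K K' t').f (tco (WK I k) p u z) := by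
  have h := G_co (wq I k) p u u' hu' t.f t'.f ht (R.r (Gen.BGHom.h φ))
    (R.r (Gen.BGHom.h φ)⁻¹) z
  unfold tco
  rw [sgp_WK]
  exact h

/-- **The gauge functor of a representation satisfies the conditions.** -/
theorem GauT.of_gm1 {m : ℕ} (G : GauX Γ (WK I k) m)
    (hG : ∀ (F : OmF (BGT Γ)) {X X' : Gen.BGObj Γ} (φ : X ⟶ X'),
      G.map F φ = gm1 k R φ (F.F X) (F.F X') (F.t φ)) : GauT G (yop I k n) where
  y F {X X'} φ i z := by
    rw [hG]
    exact gm1_y R φ (F.F X) (F.F X') (F.t φ) i z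
  sl F {X X'} φ a z := by
    rw [hG]
    exact gm1_rm R φ (F.F X) (F.F X') (F.t φ) (F.t_smul φ) a z
  h1 F {X X'} φ h w x := by
    rw [hG]
    exact gm1_h1 R φ (F.F X) (F.F X') (F.t φ) h w x

/-- The transition maps and the constants. -/
theorem thG_iot {W : SGD} {m : ℕ} {G : GauX Γ W m} {Y : LM.Yop n W} (H : GauT G Y) (N' : LM n)
    {X X' : Gen.BGObj Γ} (φ : X ⟶ X') (h : Gen.BGHom.h φ = 1) (z : W.V ⊗[ℂ] N'.V) :
    (thG H N' φ).f (H389.iot W N' ((BGT Γ).R X) z) = H389.iot W N' ((BGT Γ).R X') z := by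
  induction z using TensorProduct.induction_on with
  | zero =>
    have h1 : H389.iot W N' ((BGT Γ).R X) (0 : W.V ⊗[ℂ] N'.V) = 0 := map_zero _
    have h2 : H389.iot W N' ((BGT Γ).R X') (0 : W.V ⊗[ℂ] N'.V) = 0 := map_zero _
    exact ((congrArg (thG H N' φ).f h1).trans (map_zero (thG H N' φ).f)).trans h2.symm
  | tmul w x =>
    rw [H389.iot_tmul, H389.iot_tmul]
    refine (thG_h1 H N' φ h w 1 x).trans ?_
    rw [map_one]
  | add a b ha hb =>
    have h1 := map_add (H389.iot W N' ((BGT Γ).R X)) a b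
    have h2 := map_add (H389.iot W N' ((BGT Γ).R X')) a b
    exact (congrArg (thG H N' φ).f h1).trans ((map_add (thG H N' φ).f _ _).trans
      ((congrArg₂ (· + ·) ha hb).trans h2.symm))

/-- **The gauge transformations of `W ⊗ (Ω ⊗ N)`, in the form used for `Theta`.** -/
def thK {W : SGD} {m : ℕ} {G : GauX Γ W m} {Y : LM.Yop n W} (H : GauT G Y) (N' : LM n) :
    H389.ThG Γ Y N' where
  g φ := thG H N' φ
  sl φ a z := thG_rm H N' φ a z
  id X z := thG_id H N' X z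
  comp φ ψ z := thG_comp H N' φ ψ z
  triv {X X'} f z := thG_iot H N' (X := X) (X' := X') (H389.bf f) rfl z

end

end Vale.Agent.P286.H459
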